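import Vale.Agent.P207Z.Sm.Sk

/-!
# P207, the smooth case: algebra of frames for the bound of the mass
-/

set_option linter.unusedSectionVars false

open Set Filter Topology Metric MeasureTheory
open scoped ContDiff

noncomputable section

namespace Vale.Agent.P207Z.SC.Ms

variable {G : Type} [NormedAddCommGroup G] [NormedSpace ℝ G] {A : LA G} {n : ℕ}
  {lam : Fin n → ℝ} {θ g : G ≃L[ℝ] G} {v : G} {Y : Fin n → G}

theorem kil_comm (A : LA G) (a b : G) : A.kil a b = A.kil b a :=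
  LinearMap.trace_mul_comm ℝ (A.br a : G →ₗ[ℝ] G) (A.br b : G →ₗ[ℝ] G)

theorem kil_aut [FiniteDimensional ℝ G] (h : A.IsAut g) (a b : G) :
    A.kil (g a) (g b) = A.kil a b := by
  have : ((A.br (g a) ∘L A.br (g b) : G →L[ℝ] G) : G →ₗ[ℝ] G) =
      g.toLinearEquiv.conj ((A.br a ∘L A.br b : G →L[ℝ] G) : G →ₗ[ℝ] G) := by
    ext x
    obtain ⟨y, rfl⟩ := g.surjective x
    simp [LinearEquiv.conj_apply, h a, h b]
  rw [LA.kil, this, LinearMap.trace_conj']
  rfl

theorem kil_inv (A : LA G) (x a b : G) : A.kil (A.br x a) b = A.kil x (A.br a b) := by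
  have e : ∀ x a, (A.br (A.br x a) : G →ₗ[ℝ] G) =
      (A.br x : G →ₗ[ℝ] G) * (A.br a : G →ₗ[ℝ] G) - (A.br a : G →ₗ[ℝ] G) * (A.br x : G →ₗ[ℝ] G) := by
    intro x a
    ext c
    simp [A.jac x a c]
  change LinearMap.trace ℝ G ((A.br (A.br x a) : G →ₗ[ℝ] G) * (A.br b : G →ₗ[ℝ] G)) =
    LinearMap.trace ℝ G ((A.br x : G →ₗ[ℝ] G) * (A.br (A.br a b) : G →ₗ[ℝ] G))
  rw [e, e, sub_mul, mul_sub, map_sub, map_sub, mul_assoc, mul_assoc,
    LinearMap.trace_mul_comm ℝ (A.br a : G →ₗ[ℝ] G) (_ * _), mul_assoc]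

/-- the scalar product as a bilinear map -/
def ipl (A : LA G) (lam : Fin n → ℝ) (θ : G ≃L[ℝ] G) : G →ₗ[ℝ] G →ₗ[ℝ] ℝ :=
  LinearMap.mk₂ ℝ (A.ip lam θ)
    (fun a b c => by simp [LA.ip, LA.kil, ContinuousLinearMap.add_comp]; ring)
    (fun r a c => by simp [LA.ip, LA.kil, ContinuousLinearMap.smul_comp]; ring)
    (fun a b c => by simp [LA.ip, LA.kil, ContinuousLinearMap.comp_add]; ring)
    (fun r a c => by simp [LA.ip, LA.kil]; ring)

theorem ip_eq (a b : G) : A.ip lam θ a b = ipl A lam θ a b := rfl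

variable [FiniteDimensional ℝ G]

theorem ip_θ (h : A.IsAut θ) (a b : G) : ipl A lam θ (θ a) (θ b) = ipl A lam θ a b := by
  simp only [← ip_eq, LA.ip, kil_aut h]

theorem ip_comm (F : A.Frame lam θ v Y) (a b : G) : ipl A lam θ a b = ipl A lam θ b a := by
  simp only [← ip_eq, LA.ip]
  rw [← kil_aut F.aut a, F.inv, kil_comm]

theorem ip_br (F : A.Frame lam θ v Y) {x : G} (hx : θ x = -x) (a b : G) :
    ipl A lam θ (A.br x a) b = ipl A lam θ a (A.br x b) := by
  simp only [← ip_eq, LA.ip]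
  rw [F.aut, hx, map_neg, neg_apply, ← A.anti, ← kil_inv A a, kil_inv A x, kil_comm]

theorem ip_br' (F : A.Frame lam θ v Y) (a b : G) :
    ipl A lam θ v (A.br (θ a) b) = ipl A lam θ (A.br v a) b := by
  simp only [← ip_eq, LA.ip]
  rw [F.aut, F.inv, kil_inv]

theorem orth (F : A.Frame lam θ v Y) {a b : G} {r s : ℝ} (ha : A.br v a = r • a)
    (hb : A.br v b = s • b) (hrs : r ≠ s) : ipl A lam θ a b = 0 := by
  have := ip_br F F.neg a b
  rw [ha, hb, map_smul, map_smul, LinearMap.smul_apply, smul_eq_mul, smul_eq_mul] at this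
  exact (mul_eq_mul_right_iff.1 this).resolve_left hrs

theorem eig_θ (F : A.Frame lam θ v Y) (i : Fin n) : A.br v (θ (Y i)) = -lam i • θ (Y i) := by
  have := F.aut v (Y i)
  rw [F.eig, F.neg, map_smul, map_neg, neg_apply] at this
  rw [neg_smul, this, neg_neg]

theorem br_self (A : LA G) (a : G) : A.br a a = (0 : ℝ) • a := by
  have := A.anti a a
  linear_combination (norm := module) (1 / 2 : ℝ) • this

theorem stab_iff (F : A.Frame lam θ v Y) (Z : G) : (∀ i, ipl A lam θ Z (θ (Y i)) = 0) ↔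
    ∀ (r : ℝ) W, 0 < r → A.br v W = -r • W → ipl A lam θ Z W = 0 := by
  refine ⟨fun h r W hr hW => ?_, fun h i => h _ _ (F.lam_pos i) (eig_θ F i)⟩
  obtain ⟨Z₀, s, t, h0, rfl⟩ := F.dec Z
  have key : ∀ (r : ℝ) W, 0 < r → A.br v W = -r • W → ipl A lam θ
      (Z₀ + ∑ i, s i • Y i + ∑ i, t i • θ (Y i)) W = ∑ i, t i * ipl A lam θ (θ (Y i)) W := by
    intro r W hr hW
    have h1 := orth F (h0.trans (zero_smul ℝ _).symm) hW (by linarith)
    have h2 := fun i => orth F (F.eig i) hW (by linarith [F.lam_pos i])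
    simp [h1, h2, LinearMap.sum_apply]
  have ht : ∀ i, t i = 0 := fun i => by
    have := h i
    rw [key _ _ (F.lam_pos i) (eig_θ F i)] at this
    simpa [ip_θ F.aut, ← ip_eq, F.on] using this
  rw [key r W hr hW]
  simp [ht]

theorem eq_of_ip (F : A.Frame lam θ v Y) {v' : G} (h1 : ipl A lam θ v' v' = 1)
    (h2 : ipl A lam θ v v' = 1) : v = v' := by
  by_contra hne
  have := F.pos _ (sub_ne_zero.2 hne)
  rw [ip_eq] at this
  simp only [map_sub, LinearMap.sub_apply, ip_comm F v' v, h1, h2] at this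
  rw [← ip_eq, F.unit] at this
  linarith

/-- the motion of `v` along the field `-Q` -/
theorem motion (F : A.Frame lam θ v Y) {a : ℝ} (ha : 0 < a) (h2 : ∀ i, lam i = a ∨ lam i = 2 * a)
    {Q : G} (hQ : θ Q = -Q) (h1 : ipl A lam θ Q Q = 1) : ∃ k, θ k = k ∧
    (∀ i, ipl A lam θ (-Q - k) (θ (Y i)) = 0) ∧ θ (A.br v k) = -A.br v k ∧
    a * (1 - ipl A lam θ Q v ^ 2) ≤ ipl A lam θ Q (A.br v k) ∧
    ipl A lam θ Q (A.br v k) ≤ 2 * a := by
  obtain ⟨Z₀, s, t, h0, hd⟩ := F.dec Q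
  obtain ⟨c, hc⟩ : ∃ c, c = A.ip lam θ v Z₀ := ⟨_, rfl⟩
  have e0 := F.zero Z₀ h0
  rw [← hc, map_sub, map_smul, F.neg] at e0
  have e1 : Q = c • v + ∑ i, ((s i - t i) / 2) • (Y i - θ (Y i)) := by
    have e2 := congrArg θ hd
    rw [hQ] at e2
    simp only [map_add, map_sum, map_smul, F.inv] at e2
    have e3 : ∑ i, ((s i - t i) / 2) • (Y i - θ (Y i)) = (1 / 2 : ℝ) • (∑ i, s i • Y i +
        ∑ i, t i • θ (Y i) - ∑ i, s i • θ (Y i) - ∑ i, t i • Y i) := by
      rw [← Finset.sum_add_distrib, ← Finset.sum_sub_distrib, ← Finset.sum_sub_distrib,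
        Finset.smul_sum]
      exact Finset.sum_congr rfl fun i _ => by module
    rw [e3]
    linear_combination (norm := module) (1 / 2 : ℝ) • hd - (1 / 2 : ℝ) • e2 - (1 / 2 : ℝ) • e0
  obtain ⟨σ, hσ⟩ : ∃ σ : Fin n → ℝ, Q = c • v + ∑ i, σ i • (Y i - θ (Y i)) := ⟨_, e1⟩
  have o1 := fun i => orth F (br_self A v) (F.eig i) (F.lam_pos i).ne
  have o2 := fun i => orth F (br_self A v) (eig_θ F i) (by linarith [F.lam_pos i])
  have o3 := fun i j => orth F (F.eig i) (eig_θ F j) (by linarith [F.lam_pos i, F.lam_pos j])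
  have o4 := fun i j => (ip_comm F _ _).trans (o3 i j)
  have o5 : ∀ i j, ipl A lam θ (Y i) (Y j) = if i = j then 1 else 0 := F.on
  have o6 := fun i j => (ip_θ F.aut _ _).trans (o5 i j)
  have o7 : ipl A lam θ v v = 1 := F.unit
  have o8 := fun i => (ip_comm F _ _).trans (o1 i)
  have o9 := fun i => (ip_comm F _ _).trans (o2 i)
  have hU : ∀ j, ipl A lam θ Q (Y j - θ (Y j)) = 2 * σ j := fun j => by
    rw [hσ]
    simp [LinearMap.sum_apply, o1, o2, o3, o4, o5, o6, Finset.sum_add_distrib, mul_add]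
    ring
  have hv : ipl A lam θ Q v = c := by
    rw [hσ]
    simp [LinearMap.sum_apply, o7, o8, o9]
  have hk : A.br v (∑ i, σ i • (Y i + θ (Y i))) = ∑ i, (σ i * lam i) • (Y i - θ (Y i)) := by
    rw [map_sum]
    refine Finset.sum_congr rfl fun i _ => ?_
    rw [map_smul, map_add, F.eig, eig_θ F]
    module
  have h3 : c * c + ∑ i, σ i * (2 * σ i) = 1 := by
    rw [← h1]
    nth_rw 2 [hσ]
    simp only [map_add, map_sum, map_smul, hU, hv, smul_eq_mul]
  have h4 : ipl A lam θ Q (A.br v (∑ i, σ i • (Y i + θ (Y i)))) =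
      ∑ i, lam i * (σ i * (2 * σ i)) := by
    simp only [hk, map_sum, map_smul, hU, smul_eq_mul]
    exact Finset.sum_congr rfl fun i _ => by ring
  have h5 : ∀ i, 0 ≤ σ i * (2 * σ i) := fun i => by nlinarith [sq_nonneg (σ i)]
  refine ⟨∑ i, σ i • (Y i + θ (Y i)), ?_, fun j => ?_, ?_, ?_, ?_⟩
  · simp only [map_sum, map_smul, map_add, F.inv, add_comm]
  · rw [hσ]
    simp [LinearMap.sum_apply, o2, o3, o6]
  · simp only [hk, map_sum, map_smul, map_sub, F.inv, ← Finset.sum_neg_distrib]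
    exact Finset.sum_congr rfl fun i _ => by module
  · rw [h4, hv, show 1 - c ^ 2 = ∑ i, σ i * (2 * σ i) by linarith, Finset.mul_sum]
    refine Finset.sum_le_sum fun i _ => mul_le_mul_of_nonneg_right ?_ (h5 i)
    rcases h2 i with h | h <;> linarith
  · rw [h4]
    calc _ ≤ ∑ i, 2 * a * (σ i * (2 * σ i)) := Finset.sum_le_sum fun i _ =>
          mul_le_mul_of_nonneg_right (by rcases h2 i with h | h <;> linarith) (h5 i)
      _ ≤ _ := by rw [← Finset.mul_sum]; nlinarith [mul_self_nonneg c]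

/-- the opposite frame -/
theorem flip (F : A.Frame lam θ v Y) : A.Frame lam θ (-v) fun i => θ (Y i) where
  aut := F.aut
  inv := F.inv
  pos := F.pos
  lam_pos := F.lam_pos
  neg := by rw [map_neg, F.neg]
  unit := by simpa [ip_eq] using F.unit
  eig i := by rw [map_neg, neg_apply, eig_θ F, neg_smul, neg_neg]
  on i j := (ip_θ F.aut _ _).trans (F.on i j)
  dec Z := by
    obtain ⟨Z₀, s, t, h0, hd⟩ := F.dec Z
    exact ⟨Z₀, t, s, by simp [h0], by simp only [F.inv]; rw [hd]; abel⟩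
  zero Z h := by
    have := F.zero Z (by simpa using h)
    simpa [ip_eq] using this

theorem ip_map (h : A.IsAut g) (a b : G) :
    A.ip lam ((g.symm.trans θ).trans g) (g a) (g b) = A.ip lam θ a b := by
  simp [LA.ip, kil_aut h]

/-- the image of a frame -/
theorem map (F : A.Frame lam θ v Y) (h : A.IsAut g) :
    A.Frame lam ((g.symm.trans θ).trans g) (g v) fun i => g (Y i) where
  aut a b := by
    obtain ⟨a, rfl⟩ := g.surjective a
    obtain ⟨b, rfl⟩ := g.surjective b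
    simp [← h _ _, F.aut _ _]
  inv Z := by simp [F.inv]
  pos Z hZ := by
    obtain ⟨Z, rfl⟩ := g.surjective Z
    rw [ip_map h]
    exact F.pos Z fun h0 => hZ (by simp [h0])
  lam_pos := F.lam_pos
  neg := by simp [F.neg]
  unit := by rw [ip_map h, F.unit]
  eig i := by rw [← h, F.eig, map_smul]
  on i j := by rw [ip_map h, F.on]
  dec Z := by
    obtain ⟨Z, rfl⟩ := g.surjective Z
    obtain ⟨Z₀, s, t, h0, hd⟩ := F.dec Z
    exact ⟨g Z₀, s, t, by rw [← h, h0, map_zero], by simp [hd]⟩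
  zero Z hZ := by
    obtain ⟨Z, rfl⟩ := g.surjective Z
    rw [← h, map_eq_zero_iff _ g.injective] at hZ
    have := congrArg g (F.zero Z hZ)
    rw [ip_map h]
    simpa using this

/-- the one parameter group of `-P` -/
theorem exists_flow (A : LA G) (P : G) : ∃ g : ℝ → G ≃L[ℝ] G, (∀ t, A.IsAut (g t)) ∧
    (∀ Z, g 0 Z = Z) ∧ (∀ t Z, g (-t) Z = (g t).symm Z) ∧
    (∀ Z t, HasDerivAt (fun s => g s Z) (-A.br P (g t Z)) t) ∧
    Continuous fun p : ℝ × G => g p.1 p.2 := by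
  have : CompleteSpace G := FiniteDimensional.complete ℝ G
  set e : ℝ → G →L[ℝ] G := fun t => NormedSpace.exp (t • -A.br P) with he
  have h1 : ∀ t, HasDerivAt e (-A.br P * e t) t := fun t =>
    hasDerivAt_exp_smul_const' (𝕂 := ℝ) (-A.br P) t
  have h2 : ∀ t, HasDerivAt e (e t * -A.br P) t := fun t =>
    hasDerivAt_exp_smul_const (𝕂 := ℝ) (-A.br P) t
  have h0 : e 0 = 1 := by simp [he]
  have d1 : ∀ Z t, HasDerivAt (fun s => e s Z) (-A.br P (e t Z)) t := fun Z t => by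
    simpa using (h1 t).clm_apply (hasDerivAt_const t Z)
  have d2 : ∀ t, HasDerivAt (fun s => e (-s)) (e (-t) * A.br P) t := fun t =>
    ((h2 (-t)).scomp t (hasDerivAt_neg t)).congr_deriv (by simp)
  have key : ∀ y : ℝ → G, (∀ t, HasDerivAt y (-A.br P (y t)) t) → ∀ t, e (-t) (y t) = y 0 := by
    intro y hy t
    have hd : ∀ t, HasDerivAt (fun s => e (-s) (y s)) 0 t := fun t => by
      simpa using (d2 t).clm_apply (hy t)
    simpa [h0] using
      is_const_of_deriv_eq_zero (fun t => (hd t).differentiableAt) (fun t => (hd t).deriv) t 0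
  have hi : ∀ t Z, e (-t) (e t Z) = Z := fun t Z => by simpa [h0] using key _ (d1 Z) t
  refine ⟨fun t => ContinuousLinearEquiv.equivOfInverse (e t) (e (-t)) (hi t)
    (fun Z => by simpa using hi (-t) Z), fun t a b => ?_, fun Z => ?_, fun _ _ => rfl, d1, ?_⟩
  · have := key (fun s => A.br (e s a) (e s b)) (fun s => by
      have := ((A.br.hasFDerivAt.comp_hasDerivAt s (d1 a s)).clm_apply (d1 b s))
      refine this.congr_deriv ?_
      simp [A.jac P, add_comm]) t
    have h3 := congrArg (e t) this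
    have h4 := hi (-t) (A.br (e t a) (e t b))
    simp only [neg_neg, h0, one_apply_eq_self] at h3 h4
    exact h3.symm.trans h4
  · change e 0 Z = Z
    rw [h0]; rfl
  · have hc : Continuous e := continuous_iff_continuousAt.2 fun t => (h1 t).continuousAt
    change Continuous fun p : ℝ × G => e p.1 p.2
    fun_prop

end Vale.Agent.P207Z.SC.Ms
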