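import Vale.Agent.P207Z.Sm.Mass.Alg

/-!
# P207, the smooth case: the flow of an element of the algebra on the boundary
-/

set_option linter.unusedSectionVars false

open Set Filter Topology Metric MeasureTheory
open scoped ContDiff

noncomputable section

namespace Vale.Agent.P207Z.SC.Ms

open Vale.Agent.P207.N4 Vale.Agent.P207.N3

variable [Dim]

variable {Γ X B : Type} [Group Γ] [MetricSpace X] [ProperSpace X] [MulAction Γ X]
  [IsIsometricSMul Γ X] [TopologicalSpace B] [CompactSpace B] [T2Space B] [MulAction Γ B]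
  [ContinuousConstSMul Γ B] [MeasurableSpace B] [BorelSpace B] {L : Leaf Γ X B} {S : Sm L}
  {G : Type} [NormedAddCommGroup G] [NormedSpace ℝ G] [FiniteDimensional ℝ G] {A : Alg S G}
  {V : Type} [NormedAddCommGroup V] [NormedSpace ℝ V] {lam : Fin Dim.m → ℝ} {θ : G ≃L[ℝ] G}

theorem ball0 : (0 : E2) ∈ ball (0 : E2) 3 := mem_ball_self (by norm_num)

theorem e_fr (h : Basic0 S) (ξ : B) : L.e (fr L ξ) 0 = ξ := (L.e_zero _).trans (h.ep_fr ξ)

theorem fn_cont (h : Basic0 S) {F : B → V} (hF : IsFn L F) : Continuous F :=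
  continuous_iff_continuousAt.2 fun ξ => by
    have := ((hF (fr L ξ)).contDiffAt (isOpen_ball.mem_nhds ball0)).continuousAt
    rw [← e_fr h ξ, ContinuousAt, ← h.nhds _ _ ball0, tendsto_map'_iff]
    exact this

theorem shift {c : X → E2 → E2} {γ : ℝ → B} (hγ : Drv L (fun _ => c) γ) (t : ℝ) :
    Drv L (fun _ => c) fun s => γ (s + t) :=
  ⟨hγ.1.comp (continuous_id.add continuous_const), fun s x hs =>
    (hγ.2 (s + t) x hs).comp_add_const s t⟩

theorem chain (h : Basic0 S) {c : ℝ → X → E2 → E2} {γ : ℝ → B} (hγ : Drv L c γ) {F : B → V}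
    (hF : IsFn L F) (t : ℝ) : HasDerivAt (fun s => F (γ s))
      (fderiv ℝ (fun w => F (L.e (fr L (γ t)) w)) 0 (c t (fr L (γ t)) 0)) t := by
  obtain ⟨x, hx⟩ : ∃ x, x = fr L (γ t) := ⟨_, rfl⟩
  have e0 : L.e x 0 = γ t := hx ▸ e_fr h _
  have e1 : ch L x (γ t) = 0 := by
    rw [← e0]
    exact (L.e_inj x).leftInvOn_invFunOn (ball_subset_closedBall ball0)
  have h1 := hγ.2 t x ⟨0, ball0, e0⟩
  have h2 := (((hF x).contDiffAt (isOpen_ball.mem_nhds ball0)).differentiableAt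
    (by simp)).hasFDerivAt
  rw [← hx]
  rw [e1] at h1
  refine (h2.comp_hasDerivAt_of_eq t h1 e1.symm).congr_of_eventuallyEq ?_
  have h3 : L.e x '' ball 0 3 ∈ 𝓝 (γ t) := by
    rw [← e0, ← h.nhds x 0 ball0]
    exact image_mem_map (isOpen_ball.mem_nhds ball0)
  filter_upwards [hγ.1.continuousAt.eventually h3] with s ⟨u, hu, hs⟩
  exact congrArg F (Function.invFunOn_eq ⟨u, ball_subset_closedBall hu, hs⟩).symm

theorem uniq (ht : A.Transport) {P : G} {γ γ' : ℝ → B} (hγ : Drv L (fun _ => A.c P) γ)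
    (hγ' : Drv L (fun _ => A.c P) γ') (h0 : γ 0 = γ' 0) (t : ℝ) : γ t = γ' t := by
  by_contra hne
  have := (ht.two (fun _ => P) _ _ continuous_const (shift hγ t) (shift hγ' t)
    (by simpa using hne) (-t)).1
  exact this (by simpa using h0)

theorem van_v {ξ : B} {v : G} {Y : Fin Dim.m → G} (F : A.Car lam θ ξ v Y) :
    A.Van ξ v ∧ A.f v ξ = 1 := by
  have h1 : A.Van ξ v := (F.stab v).2 fun i =>
    orth F.toFrame (br_self A.toLA v) (eig_θ F.toFrame i) (by linarith [F.lam_pos i])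
  exact ⟨h1, (F.f_stab v h1).trans F.unit⟩

theorem car_uniq {ξ : B} {v v' : G} {Y : Fin Dim.m → G} (F : A.Car lam θ ξ v Y)
    (h1 : A.ip lam θ v' v' = 1) (h2 : A.Van ξ v' ∧ A.f v' ξ = 1) : v = v' :=
  eq_of_ip F.toFrame h1 ((F.f_stab v' h2.1).symm.trans h2.2)

/-- the properties of the one parameter group of `-P` -/
structure Fl (A : LA G) (P : G) (g : ℝ → G ≃L[ℝ] G) : Prop where
  aut : ∀ t, A.IsAut (g t)
  zero : ∀ Z, g 0 Z = Z
  neg : ∀ t Z, g (-t) Z = (g t).symm Z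
  der : ∀ Z t, HasDerivAt (fun s => g s Z) (-A.br P (g t Z)) t
  cont : Continuous fun p : ℝ × G => g p.1 p.2

theorem exists_fl (A : LA G) (P : G) : ∃ g, Fl A P g := by
  obtain ⟨g, h1, h2, h3, h4, h5⟩ := exists_flow A P
  exact ⟨g, h1, h2, h3, h4, h5⟩

variable {P : G} {g : ℝ → G ≃L[ℝ] G} {γ : ℝ → B}

theorem van_fwd (ht : A.Transport) (hg : Fl A.toLA P g) (hγ : Drv L (fun _ => A.c P) γ) {Z : G}
    (hZ : A.Van (γ 0) Z) (t : ℝ) : A.Van (γ t) (g t Z) ∧ A.f (g t Z) (γ t) = A.f Z (γ 0) := by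
  have := ht.van (fun _ => P) (fun s => g s Z) γ continuous_const (hg.der Z) hγ
    (by rwa [hg.zero]) t
  rwa [hg.zero] at this

theorem van_bwd (ht : A.Transport) (hg : Fl A.toLA P g) (hγ : Drv L (fun _ => A.c P) γ) {Z : G}
    {t : ℝ} (hZ : A.Van (γ t) (g t Z)) : A.Van (γ 0) Z := by
  have := (van_fwd ht hg (shift hγ t) (Z := g t Z) (by rwa [zero_add]) (-t)).1
  rwa [neg_add_cancel, hg.neg, (g t).symm_apply_apply] at this

/-- frames along an integral curve -/
theorem car_flow (ht : A.Transport) (hg : Fl A.toLA P g) (hγ : Drv L (fun _ => A.c P) γ) {v : G}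
    {Y : Fin Dim.m → G} (F : A.Car lam θ (γ 0) v Y) (t : ℝ) :
    A.Car lam (((g t).symm.trans θ).trans (g t)) (γ t) (g t v) fun i => g t (Y i) where
  toFrame := map F.toFrame (hg.aut t)
  stab Z := by
    obtain ⟨Z, rfl⟩ := (g t).surjective Z
    have : ∀ i, (((g t).symm.trans θ).trans (g t)) (g t (Y i)) = g t (θ (Y i)) := fun i => by simp
    simp only [this, ip_map (hg.aut t), ← F.stab]
    exact ⟨van_bwd ht hg hγ, fun h => (van_fwd ht hg hγ h t).1⟩
  f_stab Z hZ := by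
    obtain ⟨Z, rfl⟩ := (g t).surjective Z
    have h1 := van_bwd ht hg hγ hZ
    rw [ip_map (hg.aut t), (van_fwd ht hg hγ h1 t).2, F.f_stab Z h1]

theorem van_closed (h : Basic0 S) (A : Alg S G) :
    IsClosed {p : B × G | A.Van p.1 p.2 ∧ A.f p.2 p.1 = 1} := by
  refine IsClosed.inter (s₁ := {p : B × G | A.Van p.1 p.2}) ?_ (isClosed_eq ?_ continuous_const)
  · rw [← isOpen_compl_iff, isOpen_iff_mem_nhds]
    rintro ⟨ξ, H⟩ hp
    obtain ⟨x, u, hu, rfl, hne⟩ : ∃ x u, u ∈ ball (0 : E2) 3 ∧ L.e x u = ξ ∧ A.c H x u ≠ 0 := by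
      by_contra hn
      exact hp fun x u hu he => by_contra fun hne => hn ⟨x, u, hu, he, hne⟩
    let T : E2 → G →L[ℝ] E2 := fun w => LinearMap.toContinuousLinearMap
      (((LinearMap.proj w).comp (LinearMap.proj x)).comp A.c)
    have h1 : ContinuousOn T (ball 0 3) :=
      continuousOn_clm_apply.2 fun Z => ((A.kill Z).1.1 x).continuousOn
    have h2 : ContinuousAt (fun p : E2 × G => T p.1 p.2) (u, H) :=
      ((h1.continuousAt (isOpen_ball.mem_nhds hu)).comp_of_eq continuousAt_fst rfl).clm_apply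
        continuousAt_snd
    rw [nhds_prod_eq, ← h.nhds x u hu, ← map_id (f := 𝓝 H), prod_map_map_eq, ← nhds_prod_eq, mem_map]
    filter_upwards [h2.eventually_ne hne,
      continuousAt_fst.eventually (isOpen_ball.mem_nhds hu)] with p h3 h4 h5
    exact h3 (h5 x p.1 h4 rfl)
  · let T : B → G →L[ℝ] ℝ := fun ξ => LinearMap.toContinuousLinearMap
      ((LinearMap.proj ξ).comp A.f)
    have h1 : Continuous T := continuous_clm_apply.2 fun Z => fn_cont h (A.kill Z).2.1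
    exact (h1.comp continuous_fst).clm_apply continuous_snd

/-- the flow of `P` -/
theorem exists_phi (h : Basic0 S) (hi : IC L) (ht : A.Transport) {v : B → G}
    (hv : A.Model lam θ v) (hg : Fl A.toLA P g) : ∃ φ : ℝ → B → B, (∀ ξ, φ 0 ξ = ξ) ∧
    (∀ ξ, Drv L (fun _ => A.c P) fun t => φ t ξ) ∧ (∀ s t ξ, φ (s + t) ξ = φ s (φ t ξ)) ∧
    Continuous fun p : ℝ × B => φ p.1 p.2 := by
  choose γ h0 hγ using hi (A.c P) (A.kill P).1
  have hadd : ∀ s t ξ, γ ξ (s + t) = γ (γ ξ t) s := fun s t ξ =>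
    uniq ht (shift (hγ ξ) t) (hγ _) (by rw [zero_add, h0]) s
  refine ⟨fun t ξ => γ ξ t, h0, hγ, hadd, ?_⟩
  have key : ∀ t ξ z, z = γ ξ t ↔ A.Van z (g t (v ξ)) ∧ A.f (g t (v ξ)) z = 1 := by
    intro t ξ z
    obtain ⟨Y, hY⟩ := hv.car ξ
    constructor
    · rintro rfl
      have h1 := van_fwd ht hg (hγ ξ) (Z := v ξ) (by rw [h0]; exact (van_v hY).1) t
      rw [h0, (van_v hY).2] at h1
      exact h1
    · intro hz
      have h1 := van_fwd ht hg (hγ z) (Z := g t (v ξ)) (by rw [h0]; exact hz.1) (-t)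
      rw [h0, hz.2, hg.neg, (g t).symm_apply_apply] at h1
      obtain ⟨Y', hY'⟩ := hv.car (γ z (-t))
      rw [← hv.inj (car_uniq hY' hY.unit h1), ← hadd, add_neg_cancel, h0]
  have hvc := fn_cont h hv.smooth
  have hcl : IsClosed {q : (ℝ × B) × B | q.2 = γ q.1.2 q.1.1} := by
    simp only [key]
    exact (van_closed h A).preimage (f := fun q : (ℝ × B) × B => (q.2, g q.1.1 (v q.1.2)))
      (continuous_snd.prodMk (hg.cont.comp (f := fun q : (ℝ × B) × B => (q.1.1, v q.1.2))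
        (by fun_prop)))
  refine continuous_iff_isClosed.2 fun C hC => ?_
  have := isClosedMap_fst_of_compactSpace _ (hcl.inter (hC.preimage continuous_snd))
  refine (congrArg IsClosed (Set.ext fun p => ?_)).mp this
  exact ⟨fun ⟨q, ⟨h1, h2⟩, h3⟩ => by subst h3; exact (h1 ▸ h2 : γ q.1.2 q.1.1 ∈ C),
    fun hp => ⟨(p, γ p.2 p.1), ⟨rfl, hp⟩, rfl⟩⟩

end Vale.Agent.P207Z.SC.Ms
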